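import Vale.Agent.P052.R3.H304.Sel

/-! Narrow far sets: sets in a small ball. -/

namespace Vale.Agent.P052.R3.H304

open Module Finset Filter Topology InnerProductGeometry
open scoped RealInnerProductSpace

/-- (D): sets in a ball of radius less than D / sqrt (2 (1 + kappa)). -/
theorem narrow_ball {d : ℕ} {κ : ℝ} (hκ : CellBound d κ) (hκ0 : 0 ≤ κ) (hκ1 : κ < 1)
    {X : Set (EuclideanSpace ℝ (Fin d))}
    (hX : Bornology.IsBounded X) (hD : 0 < Metric.diam X)
    {c : EuclideanSpace ℝ (Fin d)} {r : ℝ} (hc : X ⊆ Metric.closedBall c r)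
    (hr : 2 * (1 + κ) * r ^ 2 < Metric.diam X ^ 2) :
    ∃ P : Fin (d + 1) → Set (EuclideanSpace ℝ (Fin d)),
      X = ⋃ i, P i ∧ ∀ i, Metric.diam (P i) < Metric.diam X := by
  set D := Metric.diam X with hDd
  have hcl : closure X ⊆ Metric.closedBall c r := closure_minimal hc Metric.isClosed_closedBall
  have hr2 : 2 * r ^ 2 < D ^ 2 := by nlinarith [sq_nonneg r]
  have key : ∀ x ∈ closure X, (∃ y ∈ closure X, dist x y = D) →
      ∃ w : EuclideanSpace ℝ (Fin d), w ≠ 0 ∧ ∃ ρ : ℝ, ρ < Real.arccos κ / 2 ∧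
        ∀ z ∈ closure X, dist x z = D → angle w (z - x) ≤ ρ := by
    rintro x hx ⟨y, hy, hxy⟩
    have hxc : ‖c - x‖ ≤ r := by
      have := hcl hx
      rw [Metric.mem_closedBall, dist_comm, dist_eq_norm] at this
      exact this
    have hyc : ‖y - c‖ ≤ r := by
      have := hcl hy
      rw [Metric.mem_closedBall, dist_eq_norm] at this
      exact this
    have hr0 : 0 ≤ r := (norm_nonneg _).trans hxc
    have hrD : r < D := by nlinarith
    have htri : D ≤ ‖y - c‖ + ‖c - x‖ := by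
      rw [← hxy, dist_comm, dist_eq_norm]
      have := norm_add_le (y - c) (c - x)
      rwa [sub_add_sub_cancel] at this
    have hp : 0 < ‖c - x‖ := by linarith
    have hrpos : 0 < r := lt_of_lt_of_le hp hxc
    have hs : (1 + κ) / 2 < (D / (2 * r)) ^ 2 := by
      rw [div_pow, lt_div_iff₀ (by positivity)]
      nlinarith
    have hsq : √((D / (2 * r)) ^ 2) = D / (2 * r) := Real.sqrt_sq (by positivity)
    have hhalf := two_arccos_lt (by linarith : -1 ≤ κ) hκ1 hs
    rw [hsq] at hhalf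
    refine ⟨c - x, norm_pos_iff.mp hp, _, hhalf, fun z hz hxz => ?_⟩
    have hzx : ‖z - x‖ = D := by rw [← dist_eq_norm, dist_comm]; exact hxz
    have hzc : ‖(c - x) - (z - x)‖ ≤ r := by
      have := hcl hz
      rw [Metric.mem_closedBall, dist_comm, dist_eq_norm] at this
      rw [sub_sub_sub_cancel_right]; exact this
    have hzc2 := pow_le_pow_left₀ (norm_nonneg _) hzc 2
    rw [norm_sub_sq_real, hzx] at hzc2
    unfold angle
    apply Real.arccos_le_arccos
    rw [hzx, div_le_div_iff₀ (by positivity) (by positivity)]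
    set p := ‖c - x‖ with hpd
    set q := ⟪c - x, z - x⟫ with hq
    have h1 : D ^ 2 + p ^ 2 - r ^ 2 ≤ 2 * q := by linarith
    have h2 : 0 ≤ (r - p) * (D ^ 2 - r * (r + p)) := by
      apply mul_nonneg (by linarith)
      nlinarith
    have h3 : D ^ 2 * p ≤ r * (2 * q) := by
      calc D ^ 2 * p ≤ r * (D ^ 2 + p ^ 2 - r ^ 2) := by nlinarith
        _ ≤ r * (2 * q) := mul_le_mul_of_nonneg_left h1 hr0
    nlinarith
  refine narrow hκ hX hD fun x hx y hy hxy => ?_
  obtain ⟨v, hv, ρ, hρ, h1⟩ := key x hx ⟨y, hy, hxy⟩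
  obtain ⟨w, hw, σ, hσ, h2⟩ := key y hy ⟨x, hx, by rw [dist_comm]; exact hxy⟩
  exact ⟨v, w, hv, hw, ρ, σ, by linarith, h1, h2⟩

end Vale.Agent.P052.R3.H304
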