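import Mathlib.Analysis.InnerProductSpace.PiL2
import Mathlib.Geometry.Euclidean.Angle.Unoriented.Basic
import Mathlib.Algebra.Order.Chebyshev
import Mathlib.Tactic

/-! Two vectors in one cell of the regular simplex make an angle at most pi - arccos (d/(d+2)). -/

namespace Vale.Agent.P052.R3.H304

open Module Finset
open scoped RealInnerProductSpace

/-- the isometry of R^d on the sum zero hyperplane of R^(d+1) -/
theorem exists_isometry (d : ℕ) :
    ∃ L : EuclideanSpace ℝ (Fin d) →ₗᵢ[ℝ] EuclideanSpace ℝ (Fin (d + 1)),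
      ∀ u, ∑ i, L u i = 0 := by
  set v : EuclideanSpace ℝ (Fin (d + 1)) := WithLp.toLp 2 (fun _ => (1 : ℝ)) with hv
  have hv0 : v ≠ 0 := by
    intro h
    have := congrArg (fun x : EuclideanSpace ℝ (Fin (d + 1)) => x 0) h
    simp [hv] at this
  have : Fact (finrank ℝ (EuclideanSpace ℝ (Fin (d + 1))) = d + 1) := ⟨by simp⟩
  let B := OrthonormalBasis.fromOrthogonalSpanSingleton (𝕜 := ℝ) d hv0
  refine ⟨(Submodule.subtypeₗᵢ _).comp B.repr.symm.toLinearIsometry, fun u => ?_⟩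
  have hmem := (B.repr.symm u).2
  rw [Submodule.mem_orthogonal_singleton_iff_inner_right] at hmem
  simpa [hv, PiLp.inner_apply] using hmem

/-- the cell lemma -/
theorem cell {d : ℕ} (a b : Fin (d + 1) → ℝ) (ha : ∑ i, a i = 0) (hb : ∑ i, b i = 0)
    (k : Fin (d + 1)) (hak : ∀ j, a j ≤ a k) (hbk : ∀ j, b j ≤ b k) :
    ∑ j, (a j - b j) ^ 2 ≤ ((d : ℝ) + 1) * ∑ j, (a j + b j) ^ 2 := by
  -- g j = a k - a j, h j = b k - b j, nonnegative, zero at k
  have hcard : (Finset.univ : Finset (Fin (d + 1))).card = d + 1 := by simp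
  have hgs : ∑ j, (a k - a j) = (d + 1) * a k := by
    rw [Finset.sum_sub_distrib, ha]; simp
  have hhs : ∑ j, (b k - b j) = (d + 1) * b k := by
    rw [Finset.sum_sub_distrib, hb]; simp
  -- (d+1) |a+b|^2 = (d+1) sum c^2 - (sum c)^2
  set c : Fin (d + 1) → ℝ := fun j => (a k - a j) + (b k - b j) with hc
  have hcs : ∑ j, c j = (d + 1) * (a k + b k) := by
    rw [hc]; simp only [Finset.sum_add_distrib]; rw [hgs, hhs]; ring
  have h1 : ∑ j, (a j + b j) ^ 2 = ∑ j, c j ^ 2 - (d + 1) * (a k + b k) ^ 2 := by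
    have e : ∀ j, (a j + b j) ^ 2 = c j ^ 2 - 2 * (a k + b k) * c j + (a k + b k) ^ 2 := by
      intro j; simp only [hc]; ring
    rw [Finset.sum_congr rfl fun j _ => e j, Finset.sum_add_distrib, Finset.sum_sub_distrib,
      ← Finset.mul_sum, hcs, Finset.sum_const, hcard, nsmul_eq_mul]
    push_cast; ring
  have h2 : ((d : ℝ) + 1) * ∑ j, (a j + b j) ^ 2
      = (d + 1) * ∑ j, c j ^ 2 - (∑ j, c j) ^ 2 := by
    rw [h1, hcs]; ring
  -- Cauchy over the d indices different from k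
  have hck : c k = 0 := by simp [hc]
  have h3 : (∑ j, c j) ^ 2 ≤ d * ∑ j, c j ^ 2 := by
    have e1 : ∑ j, c j = ∑ j ∈ Finset.univ.erase k, c j := by
      rw [← Finset.add_sum_erase _ _ (Finset.mem_univ k), hck, zero_add]
    have e2 : ∑ j, c j ^ 2 = ∑ j ∈ Finset.univ.erase k, c j ^ 2 := by
      rw [← Finset.add_sum_erase _ _ (Finset.mem_univ k), hck]; simp
    rw [e1, e2]
    have := sq_sum_le_card_mul_sum_sq (s := (Finset.univ.erase k : Finset (Fin (d + 1)))) (f := c)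
    rw [Finset.card_erase_of_mem (Finset.mem_univ k), hcard] at this
    simpa using this
  have h4 : ∑ j, c j ^ 2 ≤ ((d : ℝ) + 1) * ∑ j, (a j + b j) ^ 2 := by
    rw [h2]; linarith
  -- sum c^2 >= sum (g-h)^2 >= |a-b|^2
  have h5 : ∑ j, (a j - b j) ^ 2 ≤ ∑ j, ((a k - a j) - (b k - b j)) ^ 2 := by
    have e : ∀ j, ((a k - a j) - (b k - b j)) ^ 2
        = (a j - b j) ^ 2 - 2 * (a k - b k) * (a j - b j) + (a k - b k) ^ 2 := by
      intro j; ring
    rw [Finset.sum_congr rfl fun j _ => e j, Finset.sum_add_distrib, Finset.sum_sub_distrib,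
      ← Finset.mul_sum, Finset.sum_sub_distrib (f := a) (g := b), ha, hb]
    have : 0 ≤ ∑ _j : Fin (d + 1), (a k - b k) ^ 2 := Finset.sum_nonneg fun _ _ => sq_nonneg _
    linarith
  have h6 : ∑ j, ((a k - a j) - (b k - b j)) ^ 2 ≤ ∑ j, c j ^ 2 := by
    refine Finset.sum_le_sum fun j _ => ?_
    simp only [hc]
    have := mul_nonneg (sub_nonneg.mpr (hak j)) (sub_nonneg.mpr (hbk j))
    nlinarith
  linarith

/-- the cell lemma in R^d -/
theorem cell_norm {d : ℕ} (L : EuclideanSpace ℝ (Fin d) →ₗᵢ[ℝ] EuclideanSpace ℝ (Fin (d + 1)))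
    (hL : ∀ u, ∑ i, L u i = 0) (u v : EuclideanSpace ℝ (Fin d)) (k : Fin (d + 1))
    (hu : ∀ j, L u j ≤ L u k) (hv : ∀ j, L v j ≤ L v k) :
    ‖u - v‖ ^ 2 ≤ ((d : ℝ) + 1) * ‖u + v‖ ^ 2 := by
  have h := cell (fun j => L u j) (fun j => L v j) (hL u) (hL v) k hu hv
  rw [← L.norm_map (u - v), ← L.norm_map (u + v), EuclideanSpace.norm_sq_eq,
    EuclideanSpace.norm_sq_eq]
  simpa using h

/-- angle form -/
theorem cell_angle {d : ℕ} (L : EuclideanSpace ℝ (Fin d) →ₗᵢ[ℝ] EuclideanSpace ℝ (Fin (d + 1)))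
    (hL : ∀ u, ∑ i, L u i = 0) (u v : EuclideanSpace ℝ (Fin d)) (k : Fin (d + 1))
    (hu : ∀ j, L u j ≤ L u k) (hv : ∀ j, L v j ≤ L v k) (hu1 : ‖u‖ = 1) (hv1 : ‖v‖ = 1) :
    InnerProductGeometry.angle u v ≤ Real.pi - Real.arccos ((d : ℝ) / (d + 2)) := by
  have h := cell_norm L hL u v k hu hv
  rw [norm_sub_sq_real, norm_add_sq_real, hu1, hv1] at h
  have hd : (0 : ℝ) ≤ d := Nat.cast_nonneg d
  have h2 : -((d : ℝ) / (d + 2)) ≤ ⟪u, v⟫ := by
    rw [neg_le, ← sub_nonneg]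
    have : 0 ≤ ((d : ℝ) + (d + 2) * ⟪u, v⟫) / (d + 2) := by
      apply div_nonneg _ (by positivity)
      nlinarith
    have e : ((d : ℝ) + (d + 2) * ⟪u, v⟫) / (d + 2) = (d : ℝ) / (d + 2) - -⟪u, v⟫ := by
      field_simp
      ring
    rw [← e]; exact this
  rw [← Real.arccos_neg]
  unfold InnerProductGeometry.angle
  rw [hu1, hv1]
  apply Real.arccos_le_arccos
  simpa using h2

end Vale.Agent.P052.R3.H304
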