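import Mathlib.Analysis.InnerProductSpace.PiL2
import Mathlib.Analysis.InnerProductSpace.Projection.Minimal
import Mathlib.Analysis.Convex.Caratheodory
import Mathlib.Analysis.Convex.Topology
import Mathlib.Algebra.Order.Chebyshev
import Mathlib.LinearAlgebra.AffineSpace.FiniteDimensional
import Mathlib.Tactic

/-! Jung on the sphere: unit vectors with pairwise inner products at least b lie in a cap. -/

namespace Vale.Agent.P052.R3.H304

open Module Finset
open scoped RealInnerProductSpace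

variable {E : Type*} [NormedAddCommGroup E] [InnerProductSpace ℝ E]

/-- the minimal point of a nonempty compact convex set -/
theorem exists_min_point {K : Set E} (hK : IsCompact K) (hc : Convex ℝ K) (hn : K.Nonempty) :
    ∃ w ∈ K, ∀ x ∈ K, ‖w‖ ^ 2 ≤ ⟪w, x⟫ := by
  obtain ⟨w, hw, hmin⟩ := hK.exists_isMinOn hn continuous_norm.continuousOn
  refine ⟨w, hw, fun x hx => ?_⟩
  by_contra hlt
  push Not at hlt
  -- move a little from w to x
  set g : ℝ := ‖w‖ ^ 2 - ⟪w, x⟫ with hg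
  have hg0 : 0 < g := by rw [hg]; linarith
  have key : ∀ t : ℝ, 0 ≤ t → t ≤ 1 → 2 * g * t ≤ t ^ 2 * ‖x - w‖ ^ 2 := by
    intro t ht0 ht1
    have hmem : w + t • (x - w) ∈ K := hc.add_smul_sub_mem hw hx ⟨ht0, ht1⟩
    have h1 : ‖w‖ ≤ ‖w + t • (x - w)‖ := hmin hmem
    have h2 : ‖w‖ ^ 2 ≤ ‖w + t • (x - w)‖ ^ 2 := by
      exact pow_le_pow_left₀ (norm_nonneg _) h1 2
    rw [norm_add_sq_real, inner_smul_right, norm_smul, mul_pow, inner_sub_right,
      real_inner_self_eq_norm_sq, Real.norm_eq_abs, sq_abs] at h2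
    rw [hg]
    nlinarith [h2]
  by_cases hz : ‖x - w‖ ^ 2 = 0
  · have := key 1 (by norm_num) le_rfl
    rw [hz] at this
    linarith
  · have hpos : 0 < ‖x - w‖ ^ 2 := lt_of_le_of_ne (by positivity) (Ne.symm hz)
    set t : ℝ := min 1 (g / ‖x - w‖ ^ 2) with ht
    have ht0 : 0 < t := lt_min one_pos (div_pos hg0 hpos)
    have := key t ht0.le (min_le_left _ _)
    have h3 : t * ‖x - w‖ ^ 2 ≤ g := by
      have := min_le_right 1 (g / ‖x - w‖ ^ 2)
      calc t * ‖x - w‖ ^ 2 ≤ g / ‖x - w‖ ^ 2 * ‖x - w‖ ^ 2 := by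
            apply mul_le_mul_of_nonneg_right this hpos.le
        _ = g := div_mul_cancel₀ _ hpos.ne'
    nlinarith [mul_pos ht0 hg0]

/-- affinely independent points on an affine hyperplane not through the origin are at most
finrank many -/
theorem card_le_of_hyperplane [FiniteDimensional ℝ E] {ι : Type*} [Fintype ι] {z : ι → E}
    (hz : AffineIndependent ℝ z) {w : E} {c : ℝ} (hc : c ≠ 0) (h : ∀ i, ⟪w, z i⟫ = c) :
    Fintype.card ι ≤ finrank ℝ E := by
  have hli : LinearIndependent ℝ z := by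
    rw [Fintype.linearIndependent_iff]
    intro g hg
    have hsum : ∑ i, g i = 0 := by
      have h0 : ⟪w, ∑ i, g i • z i⟫ = 0 := by rw [hg, inner_zero_right]
      rw [inner_sum] at h0
      have h1 : ∑ i, ⟪w, g i • z i⟫ = (∑ i, g i) * c := by
        rw [Finset.sum_mul]
        exact Finset.sum_congr rfl fun i _ => by rw [inner_smul_right, h i]
      rw [h1] at h0
      exact (mul_eq_zero.mp h0).resolve_right hc
    rw [affineIndependent_iff] at hz
    intro i
    exact hz Finset.univ g hsum (by simpa using hg) i (Finset.mem_univ i)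
  exact hli.fintype_card_le_finrank

open scoped Classical in
/-- Jung on the sphere. -/
theorem jung_finite [FiniteDimensional ℝ E] (U : Set E) (hU : U.Nonempty) (hc : U.Finite)
    (h1 : ∀ u ∈ U, ‖u‖ = 1) {b : ℝ} (hb0 : 0 ≤ b) (hb1 : b ≤ 1)
    (h2 : ∀ u ∈ U, ∀ v ∈ U, b ≤ ⟪u, v⟫) :
    ∃ w : E, ‖w‖ = 1 ∧
      ∀ u ∈ U, √(b + (1 - b) / finrank ℝ E) ≤ ⟪w, u⟫ := by
  obtain ⟨w, hwK, hw⟩ := exists_min_point (hc.isCompact_convexHull ℝ)
    (convex_convexHull ℝ U) hU.convexHull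
  obtain ⟨ι, hι, z, c, hz, hai, hcpos, hcsum, hcw⟩ :=
    eq_pos_convex_span_of_mem_convexHull hwK
  -- every point of the combination is on the hyperplane
  have hsumin : ∑ i, c i * ⟪w, z i⟫ = ‖w‖ ^ 2 := by
    rw [← real_inner_self_eq_norm_sq w]
    conv_rhs => rw [← hcw]
    rw [hcw, ← hcw, inner_sum]
    rw [hcw]
    exact Finset.sum_congr rfl fun i _ => by rw [inner_smul_right]
  have hzU : ∀ i, z i ∈ U := fun i => hz ⟨i, rfl⟩
  have hge : ∀ i, ‖w‖ ^ 2 ≤ ⟪w, z i⟫ := fun i => hw _ (subset_convexHull ℝ U (hzU i))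
  have heq : ∀ i, ⟪w, z i⟫ = ‖w‖ ^ 2 := by
    have h0 : ∑ i, c i * (⟪w, z i⟫ - ‖w‖ ^ 2) = 0 := by
      simp only [mul_sub, Finset.sum_sub_distrib]
      rw [hsumin, ← Finset.sum_mul, hcsum]
      ring
    have h3 := (Finset.sum_eq_zero_iff_of_nonneg
      (fun i _ => mul_nonneg (hcpos i).le (sub_nonneg.mpr (hge i)))).mp h0
    intro i
    have := h3 i (Finset.mem_univ i)
    rcases mul_eq_zero.mp this with h | h
    · exact absurd h (hcpos i).ne'
    · linarith
  -- the norm of w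
  have hnorm : b + (1 - b) * ∑ i, c i ^ 2 ≤ ‖w‖ ^ 2 := by
    have h4 : ‖w‖ ^ 2 = ∑ i, ∑ j, c i * c j * ⟪z i, z j⟫ := by
      rw [← real_inner_self_eq_norm_sq w]
      conv_lhs => rw [← hcw]
      rw [sum_inner]
      refine Finset.sum_congr rfl fun i _ => ?_
      rw [inner_sum]
      refine Finset.sum_congr rfl fun j _ => ?_
      rw [inner_smul_left, inner_smul_right]
      simp; ring
    have h5 : ∀ i j, c i * c j * b + (if i = j then (1 - b) * (c i * c j) else 0)
        ≤ c i * c j * ⟪z i, z j⟫ := by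
      intro i j
      by_cases hij : i = j
      · subst hij
        rw [if_pos rfl, real_inner_self_eq_norm_sq, h1 _ (hzU i)]
        nlinarith
      · rw [if_neg hij, add_zero]
        exact mul_le_mul_of_nonneg_left (h2 _ (hzU i) _ (hzU j))
          (mul_nonneg (hcpos i).le (hcpos j).le)
    have h6 : ∑ i, ∑ j, (c i * c j * b + (if i = j then (1 - b) * (c i * c j) else 0))
        ≤ ‖w‖ ^ 2 := by
      rw [h4]
      exact Finset.sum_le_sum fun i _ => Finset.sum_le_sum fun j _ => h5 i j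
    have h7 : ∑ i, ∑ j, (c i * c j * b + (if i = j then (1 - b) * (c i * c j) else 0))
        = b + (1 - b) * ∑ i, c i ^ 2 := by
      simp only [Finset.sum_add_distrib]
      congr 1
      · have : ∑ i, ∑ j, c i * c j * b = (∑ i, c i) * (∑ j, c j) * b := by
          rw [Finset.sum_mul_sum, Finset.sum_mul]
          exact Finset.sum_congr rfl fun i _ => by rw [Finset.sum_mul]
        rw [this, hcsum]; ring
      · rw [Finset.mul_sum]
        refine Finset.sum_congr rfl fun i _ => ?_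
        rw [Finset.sum_ite_eq]
        simp [sq]
    linarith
  have hne : Nonempty ι := by
    by_contra hemp
    rw [not_nonempty_iff] at hemp
    simp at hcsum
  have hwpos : 0 < ‖w‖ ^ 2 := by
    have h9 : 0 < ∑ i, c i ^ 2 :=
      Finset.sum_pos (fun i _ => pow_pos (hcpos i) 2) Finset.univ_nonempty
    rcases hb0.eq_or_lt with h0 | h0
    · rw [← h0] at hnorm; linarith
    · have : 0 ≤ (1 - b) * ∑ i, c i ^ 2 := mul_nonneg (by linarith) h9.le
      linarith
  have hcard : Fintype.card ι ≤ finrank ℝ E :=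
    card_le_of_hyperplane hai hwpos.ne' heq
  have hcard0 : 0 < Fintype.card ι := Fintype.card_pos
  -- Cauchy
  have hcs : 1 ≤ (Fintype.card ι : ℝ) * ∑ i, c i ^ 2 := by
    have := sq_sum_le_card_mul_sum_sq (s := (Finset.univ : Finset ι)) (f := c)
    rw [hcsum, Finset.card_univ] at this
    simpa using this
  set d : ℝ := (finrank ℝ E : ℝ) with hd
  have hd0 : 0 < d := by
    have : 0 < finrank ℝ E := lt_of_lt_of_le hcard0 hcard
    rw [hd]; exact_mod_cast this
  have hcardd : (Fintype.card ι : ℝ) ≤ d := by rw [hd]; exact_mod_cast hcard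
  have hS : 1 ≤ d * ∑ i, c i ^ 2 :=
    hcs.trans (mul_le_mul_of_nonneg_right hcardd (Finset.sum_nonneg fun i _ => sq_nonneg _))
  have hfin : b + (1 - b) / d ≤ ‖w‖ ^ 2 := by
    have h9 : 1 / d ≤ ∑ i, c i ^ 2 := by
      rw [div_le_iff₀ hd0]; linarith
    have e : (1 - b) / d = (1 - b) * (1 / d) := by ring
    have h10 := mul_le_mul_of_nonneg_left h9 (by linarith : 0 ≤ 1 - b)
    rw [e]; linarith
  have hw0 : 0 < ‖w‖ := by
    by_contra hneg
    have : ‖w‖ = 0 := le_antisymm (not_lt.mp hneg) (norm_nonneg _)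
    rw [this] at hwpos
    norm_num at hwpos
  refine ⟨(‖w‖)⁻¹ • w, ?_, fun u hu => ?_⟩
  · rw [norm_smul, norm_inv, norm_norm, inv_mul_cancel₀ hw0.ne']
  · rw [real_inner_smul_left]
    have h8 : ‖w‖ ^ 2 ≤ ⟪w, u⟫ := hw u (subset_convexHull ℝ U hu)
    calc √(b + (1 - b) / d) ≤ ‖w‖ := by
          rw [show ‖w‖ = √(‖w‖ ^ 2) by rw [Real.sqrt_sq hw0.le]]
          exact Real.sqrt_le_sqrt hfin
      _ = (‖w‖)⁻¹ * ‖w‖ ^ 2 := by field_simp
      _ ≤ (‖w‖)⁻¹ * ⟪w, u⟫ := mul_le_mul_of_nonneg_left h8 (inv_nonneg.mpr hw0.le)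

/-- Jung on the sphere, for every set of unit vectors. -/
theorem jung_sphere [FiniteDimensional ℝ E] (U : Set E) (hU : U.Nonempty)
    (h1 : ∀ u ∈ U, ‖u‖ = 1) {b : ℝ} (hb0 : 0 ≤ b) (hb1 : b ≤ 1)
    (h2 : ∀ u ∈ U, ∀ v ∈ U, b ≤ ⟪u, v⟫) :
    ∃ w : E, ‖w‖ = 1 ∧
      ∀ u ∈ U, √(b + (1 - b) / finrank ℝ E) ≤ ⟪w, u⟫ := by
  set c : ℝ := √(b + (1 - b) / finrank ℝ E) with hcdef
  have hcomp : IsCompact (Metric.sphere (0 : E) 1) := isCompact_sphere _ _
  have hcl : ∀ u : U, IsClosed {w : E | c ≤ ⟪w, (u : E)⟫} := fun u =>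
    isClosed_le continuous_const (continuous_id.inner continuous_const)
  have hfip := hcomp.inter_iInter_nonempty (fun u : U => {w : E | c ≤ ⟪w, (u : E)⟫}) hcl ?_
  · obtain ⟨w, hw, hwu⟩ := hfip
    refine ⟨w, by simpa using hw, fun u hu => ?_⟩
    have := Set.mem_iInter.mp hwu ⟨u, hu⟩
    exact this
  · intro s
    obtain ⟨u0, hu0⟩ := hU
    obtain ⟨w, hw, hwu⟩ := jung_finite (insert u0 ((fun u : U => (u : E)) '' (s : Set U)))
      (Set.insert_nonempty _ _) ((s.finite_toSet.image _).insert _)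
      (by
        rintro u (rfl | ⟨v, _, rfl⟩)
        · exact h1 _ hu0
        · exact h1 _ v.2) hb0 hb1
      (by
        have hmem : ∀ u ∈ insert u0 ((fun u : U => (u : E)) '' (s : Set U)), u ∈ U := by
          rintro u (rfl | ⟨v, _, rfl⟩)
          · exact hu0
          · exact v.2
        exact fun u hu v hv => h2 u (hmem u hu) v (hmem v hv))
    refine ⟨w, by simpa using hw, ?_⟩
    rw [Set.mem_iInter₂]
    intro u hu
    exact hwu _ (Set.mem_insert_of_mem _ ⟨u, hu, rfl⟩)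

end Vale.Agent.P052.R3.H304
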