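import Vale.Agent.P052.R3.H304.Jung
import Vale.Agent.P052.R3.H304.Cell
import Mathlib.Geometry.Euclidean.Angle.Unoriented.TriangleInequality

/-! Narrow far sets: selection of the centres of caps and the cover. -/

namespace Vale.Agent.P052.R3.H304

open Module Finset Filter Topology InnerProductGeometry
open scoped RealInnerProductSpace

variable {E : Type*} [NormedAddCommGroup E] [InnerProductSpace ℝ E]

/-- radii of the caps which contain all directions from x to points at distance >= D - e -/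
def Rad (K : Set E) (D e : ℝ) (x : E) : Set ℝ :=
  {ρ | 0 ≤ ρ ∧ ∃ v : E, ‖v‖ = 1 ∧ ∀ y ∈ K, D - e ≤ dist x y → angle v (y - x) ≤ ρ}

theorem local_cap {K : Set E} (hK : IsCompact K) {D : ℝ} (hD : 0 < D)
    (hdiam : ∀ x ∈ K, ∀ y ∈ K, dist x y ≤ D) {x : E} (hx : x ∈ K) {v : E} (hv : v ≠ 0) {ρ : ℝ}
    (h : ∀ y ∈ K, dist x y = D → angle v (y - x) ≤ ρ) {η : ℝ} (hη : 0 < η) :
    ∀ᶠ p : E × ℝ in 𝓝 (x, 0), ∀ y ∈ K, dist p.1 y < D - p.2 ∨ angle v (y - p.1) < ρ + η := by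
  apply hK.eventually_forall_of_forall_eventually
  intro y hy
  by_cases hxy : dist x y = D
  · have hne : y - x ≠ 0 := by
      intro h0
      rw [sub_eq_zero] at h0
      rw [h0, dist_self] at hxy
      exact hD.ne hxy
    have h0 : Tendsto (fun q : E × E => angle q.1 q.2) (𝓝 (v, y - x)) (𝓝 (angle v (y - x))) :=
      continuousAt_angle (x := (v, y - x)) hv hne
    have h1 : Tendsto (fun z : (E × ℝ) × E => ((v, z.2 - z.1.1) : E × E)) (𝓝 ((x, 0), y))
        (𝓝 (v, y - x)) := by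
      have : Continuous (fun z : (E × ℝ) × E => ((v, z.2 - z.1.1) : E × E)) := by fun_prop
      exact this.tendsto ((x, 0), y)
    have hlt : angle v (y - x) < ρ + η := by linarith [h y hy hxy]
    have h2 : ∀ᶠ q : E × E in 𝓝 (v, y - x), angle q.1 q.2 < ρ + η :=
      h0.eventually_lt_const hlt
    exact (h1.eventually h2).mono fun _ h3 => Or.inr h3
  · have hlt : dist x y < D - 0 := by
      rw [sub_zero]; exact lt_of_le_of_ne (hdiam x hx y hy) hxy
    have h1 : Tendsto (fun z : (E × ℝ) × E => dist z.1.1 z.2) (𝓝 ((x, 0), y))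
        (𝓝 (dist x y)) := by
      have : Continuous (fun z : (E × ℝ) × E => dist z.1.1 z.2) := by fun_prop
      exact this.tendsto ((x, 0), y)
    have h2 : Tendsto (fun z : (E × ℝ) × E => D - z.1.2) (𝓝 ((x, 0), y)) (𝓝 (D - 0)) := by
      have : Continuous (fun z : (E × ℝ) × E => D - z.1.2) := by fun_prop
      exact this.tendsto ((x, 0), y)
    exact (h1.eventually_lt h2 hlt).mono fun _ h3 => Or.inl h3

theorem mem_rad {K : Set E} {D e : ℝ} {x v : E} (hv : v ≠ 0) {ρ : ℝ} (hρ : 0 ≤ ρ)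
    (h : ∀ y ∈ K, dist x y < D - e ∨ angle v (y - x) < ρ) : ρ ∈ Rad K D e x := by
  refine ⟨hρ, (‖v‖)⁻¹ • v, ?_, fun y hy hxy => ?_⟩
  · rw [norm_smul, norm_inv, norm_norm, inv_mul_cancel₀ (norm_ne_zero_iff.mpr hv)]
  · rw [angle_smul_left_of_pos _ _ (inv_pos.mpr (norm_pos_iff.mpr hv))]
    rcases h y hy with h1 | h1
    · linarith
    · exact h1.le

theorem global_cap {K : Set E} (hK : IsCompact K) {D : ℝ} (hD : 0 < D)
    (hdiam : ∀ x ∈ K, ∀ y ∈ K, dist x y ≤ D) {θ : ℝ}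
    (h : ∀ x ∈ K, ∀ y ∈ K, dist x y = D → ∃ v w : E, v ≠ 0 ∧ w ≠ 0 ∧ ∃ ρ σ : ℝ, ρ + σ < θ ∧
      (∀ z ∈ K, dist x z = D → angle v (z - x) ≤ ρ) ∧
      (∀ z ∈ K, dist y z = D → angle w (z - y) ≤ σ)) :
    ∃ e : ℝ, 0 < e ∧ ∀ x ∈ K, ∀ z ∈ K, D - e ≤ dist x z →
      ∃ ρ ∈ Rad K D e x, ∃ σ ∈ Rad K D e z, ρ + σ ≤ θ - e := by
  have hev : ∀ᶠ e : ℝ in 𝓝 0, ∀ q ∈ K ×ˢ K, dist q.1 q.2 < D - e ∨
      ∃ ρ ∈ Rad K D e q.1, ∃ σ ∈ Rad K D e q.2, ρ + σ ≤ θ - e := by
    apply (hK.prod hK).eventually_forall_of_forall_eventually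
      (P := fun (e : ℝ) (q : E × E) => dist q.1 q.2 < D - e ∨
        ∃ ρ ∈ Rad K D e q.1, ∃ σ ∈ Rad K D e q.2, ρ + σ ≤ θ - e)
    rintro ⟨x, z⟩ ⟨hx, hz⟩
    simp only at hx hz
    by_cases hxz : dist x z = D
    · obtain ⟨v, w, hv, hw, ρ, σ, hρσ, h1, h2⟩ := h x hx z hz hxz
      have hρ : 0 ≤ ρ := (angle_nonneg _ _).trans (h1 z hz hxz)
      have hσ : 0 ≤ σ := (angle_nonneg _ _).trans (h2 x hx (by rw [dist_comm]; exact hxz))
      set η : ℝ := (θ - ρ - σ) / 4 with hηd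
      have hη : 0 < η := by rw [hηd]; linarith
      have e1 := local_cap hK hD hdiam hx hv h1 hη
      have e2 := local_cap hK hD hdiam hz hw h2 hη
      have t1 : Tendsto (fun p : ℝ × (E × E) => ((p.2.1, p.1) : E × ℝ)) (𝓝 (0, (x, z)))
          (𝓝 (x, 0)) := by
        have : Continuous (fun p : ℝ × (E × E) => ((p.2.1, p.1) : E × ℝ)) := by
          fun_prop
        exact this.tendsto (0, (x, z))
      have t2 : Tendsto (fun p : ℝ × (E × E) => ((p.2.2, p.1) : E × ℝ)) (𝓝 (0, (x, z)))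
          (𝓝 (z, 0)) := by
        have : Continuous (fun p : ℝ × (E × E) => ((p.2.2, p.1) : E × ℝ)) := by
          fun_prop
        exact this.tendsto (0, (x, z))
      have t3 : ∀ᶠ p : ℝ × (E × E) in 𝓝 (0, (x, z)), p.1 < 2 * η := by
        have : Tendsto (fun p : ℝ × (E × E) => p.1) (𝓝 (0, (x, z))) (𝓝 0) :=
          continuous_fst.tendsto (0, (x, z))
        exact this.eventually_lt_const (by linarith)
      filter_upwards [t1.eventually e1, t2.eventually e2, t3] with p p1 p2 p3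
      right
      refine ⟨ρ + η, mem_rad hv (by linarith) p1, σ + η, mem_rad hw (by linarith) p2, ?_⟩
      rw [hηd] at p3 ⊢
      linarith
    · have hlt : dist x z < D - 0 := by
        rw [sub_zero]; exact lt_of_le_of_ne (hdiam x hx z hz) hxz
      have h1 : Tendsto (fun p : ℝ × (E × E) => dist p.2.1 p.2.2) (𝓝 (0, (x, z)))
          (𝓝 (dist x z)) := by
        have : Continuous (fun p : ℝ × (E × E) => dist p.2.1 p.2.2) := by fun_prop
        exact this.tendsto (0, (x, z))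
      have h2 : Tendsto (fun p : ℝ × (E × E) => D - p.1) (𝓝 (0, (x, z))) (𝓝 (D - 0)) := by
        have : Continuous (fun p : ℝ × (E × E) => D - p.1) := by fun_prop
        exact this.tendsto (0, (x, z))
      exact (h1.eventually_lt h2 hlt).mono fun _ h3 => Or.inl h3
  have hev2 : ∀ᶠ e : ℝ in 𝓝[>] 0, ∀ q ∈ K ×ˢ K, dist q.1 q.2 < D - e ∨
      ∃ ρ ∈ Rad K D e q.1, ∃ σ ∈ Rad K D e q.2, ρ + σ ≤ θ - e :=
    hev.filter_mono nhdsWithin_le_nhds
  obtain ⟨e, he, he0⟩ := (hev2.and self_mem_nhdsWithin).exists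
  refine ⟨e, he0, fun x hx z hz hxz => ?_⟩
  rcases he (x, z) ⟨hx, hz⟩ with h1 | h1
  · simp only at h1; linarith
  · exact h1

/-- a unit vector for every point -/
theorem exists_centres {K : Set E} {D e θ : ℝ} (he : 0 < e)
    (h : ∀ x ∈ K, ∀ z ∈ K, D - e ≤ dist x z →
      ∃ ρ ∈ Rad K D e x, ∃ σ ∈ Rad K D e z, ρ + σ ≤ θ - e) :
    ∃ v : E → E, ∀ x ∈ K, ∀ z ∈ K, D - e ≤ dist x z →
      ‖v x‖ = 1 ∧ ‖v z‖ = 1 ∧ angle (v x) (z - x) + angle (v z) (x - z) < θ := by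
  have hch : ∀ x : E, ∃ v : E, (Rad K D e x).Nonempty → ‖v‖ = 1 ∧
      ∀ y ∈ K, D - e ≤ dist x y → angle v (y - x) ≤ sInf (Rad K D e x) + e / 3 := by
    intro x
    by_cases hne : (Rad K D e x).Nonempty
    · obtain ⟨ρ, ⟨hρ0, v, hv, hvy⟩, hlt⟩ := Real.lt_sInf_add_pos hne (by positivity : 0 < e / 3)
      exact ⟨v, fun _ => ⟨hv, fun y hy hxy => (hvy y hy hxy).trans hlt.le⟩⟩
    · exact ⟨0, fun h0 => absurd h0 hne⟩
  choose v hv using hch
  refine ⟨v, fun x hx z hz hxz => ?_⟩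
  obtain ⟨ρ, hρ, σ, hσ, hs⟩ := h x hx z hz hxz
  have hb : ∀ y, BddBelow (Rad K D e y) := fun y => ⟨0, fun r hr => hr.1⟩
  have h1 := csInf_le (hb x) hρ
  have h2 := csInf_le (hb z) hσ
  obtain ⟨n1, a1⟩ := hv x ⟨ρ, hρ⟩
  obtain ⟨n2, a2⟩ := hv z ⟨σ, hσ⟩
  refine ⟨n1, n2, ?_⟩
  have b1 := a1 z hz hxz
  have b2 := a2 x hx (by rw [dist_comm]; exact hxz)
  linarith

/-- the angle bound in the cells -/
def CellBound (d : ℕ) (κ : ℝ) : Prop :=
  ∀ L : EuclideanSpace ℝ (Fin d) →ₗᵢ[ℝ] EuclideanSpace ℝ (Fin (d + 1)), (∀ u, ∑ i, L u i = 0) →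
    ∀ (u v : EuclideanSpace ℝ (Fin d)) (k : Fin (d + 1)), (∀ j, L u j ≤ L u k) →
      (∀ j, L v j ≤ L v k) → ‖u‖ = 1 → ‖v‖ = 1 → angle u v ≤ Real.pi - Real.arccos κ

theorem cellBound (d : ℕ) : CellBound d ((d : ℝ) / (d + 2)) :=
  fun L hL u v k hu hv hu1 hv1 => cell_angle L hL u v k hu hv hu1 hv1

/-- (A): narrow far sets. -/
theorem narrow {d : ℕ} {κ : ℝ} (hκ : CellBound d κ) {X : Set (EuclideanSpace ℝ (Fin d))}
    (hX : Bornology.IsBounded X) (hD : 0 < Metric.diam X)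
    (h : ∀ x ∈ closure X, ∀ y ∈ closure X, dist x y = Metric.diam X →
      ∃ v w : EuclideanSpace ℝ (Fin d), v ≠ 0 ∧ w ≠ 0 ∧
      ∃ ρ σ : ℝ, ρ + σ < Real.arccos κ ∧
      (∀ z ∈ closure X, dist x z = Metric.diam X → angle v (z - x) ≤ ρ) ∧
      (∀ z ∈ closure X, dist y z = Metric.diam X → angle w (z - y) ≤ σ)) :
    ∃ P : Fin (d + 1) → Set (EuclideanSpace ℝ (Fin d)),
      X = ⋃ i, P i ∧ ∀ i, Metric.diam (P i) < Metric.diam X := by
  set D := Metric.diam X with hDdef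
  have hK : IsCompact (closure X) := hX.isCompact_closure
  have hdiam : ∀ x ∈ closure X, ∀ y ∈ closure X, dist x y ≤ D := by
    intro x hx y hy
    rw [hDdef, ← Metric.diam_closure]
    exact Metric.dist_le_diam_of_mem hX.closure hx hy
  obtain ⟨e, he, hglob⟩ := global_cap hK hD hdiam h
  obtain ⟨v, hv⟩ := exists_centres he hglob
  obtain ⟨L, hL⟩ := exists_isometry d
  have hmax : ∀ x, ∃ k : Fin (d + 1), ∀ j, L (v x) j ≤ L (v x) k := fun x =>
    Finite.exists_max (fun j => L (v x) j)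
  choose k hk using hmax
  refine ⟨fun i => {x ∈ X | k x = i}, ?_, fun i => ?_⟩
  · ext x
    simp
  · have hle : Metric.diam {x ∈ X | k x = i} ≤ max 0 (D - e) := by
      apply Metric.diam_le_of_forall_dist_le (le_max_left _ _)
      rintro x ⟨hx, hxi⟩ z ⟨hz, hzi⟩
      by_contra hlt
      have hxz : D - e ≤ dist x z := by
        have := (not_le.mp hlt).le
        exact (le_max_right _ _).trans this
      have hpos : 0 < dist x z := lt_of_le_of_lt (le_max_left _ _) (not_le.mp hlt)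
      obtain ⟨n1, n2, hang⟩ := hv x (subset_closure hx) z (subset_closure hz) hxz
      have hne : z - x ≠ 0 := by
        intro h0
        rw [sub_eq_zero] at h0
        rw [h0, dist_self] at hpos
        exact lt_irrefl _ hpos
      have hpi : angle (z - x) (x - z) = Real.pi := by
        rw [← neg_sub z x]
        exact angle_self_neg_of_nonzero hne
      have t1 := angle_le_angle_add_angle (z - x) (v x) (x - z)
      have t2 := angle_le_angle_add_angle (v x) (v z) (x - z)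
      rw [hpi] at t1
      rw [angle_comm (z - x) (v x)] at t1
      have hcell := hκ L hL (v x) (v z) i
        (fun j => by have := hk x j; rw [hxi] at this; exact this)
        (fun j => by have := hk z j; rw [hzi] at this; exact this) n1 n2
      linarith
    exact lt_of_le_of_lt hle (max_lt hD (by linarith))

/-- Jung: the directions to the far points lie in a cap. -/
theorem cap_all {d : ℕ} {K : Set (EuclideanSpace ℝ (Fin d))} {D : ℝ} (hD : 0 < D)
    (x : EuclideanSpace ℝ (Fin d)) (hx : ∃ y ∈ K, dist x y = D) {b : ℝ} (hb0 : 0 ≤ b)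
    (hb1 : b ≤ 1) (hb : ∀ y ∈ K, ∀ z ∈ K, dist x y = D → dist x z = D →
      dist y z ^ 2 ≤ 2 * D ^ 2 * (1 - b)) :
    ∃ w : EuclideanSpace ℝ (Fin d), w ≠ 0 ∧ ∀ z ∈ K, dist x z = D →
      angle w (z - x) ≤ Real.arccos (√(b + (1 - b) / d)) := by
  set U : Set (EuclideanSpace ℝ (Fin d)) := {u | ∃ y ∈ K, dist x y = D ∧ u = D⁻¹ • (y - x)} with hU
  have hnorm : ∀ y, dist x y = D → ‖y - x‖ = D := by
    intro y hy; rw [← dist_eq_norm, dist_comm]; exact hy
  obtain ⟨y0, hy0, hxy0⟩ := hx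
  have h1 : ∀ u ∈ U, ‖u‖ = 1 := by
    rintro u ⟨y, hy, hxy, rfl⟩
    rw [norm_smul, hnorm y hxy, Real.norm_eq_abs, abs_of_pos (inv_pos.mpr hD),
      inv_mul_cancel₀ hD.ne']
  have h2 : ∀ u ∈ U, ∀ v ∈ U, b ≤ ⟪u, v⟫ := by
    rintro u ⟨y, hy, hxy, rfl⟩ v ⟨z, hz, hxz, rfl⟩
    rw [real_inner_smul_left, real_inner_smul_right]
    have e1 : ‖(y - x) - (z - x)‖ ^ 2 ≤ 2 * D ^ 2 * (1 - b) := by
      rw [sub_sub_sub_cancel_right, ← dist_eq_norm]; exact hb y hy z hz hxy hxz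
    rw [norm_sub_sq_real, hnorm y hxy, hnorm z hxz] at e1
    have e2 : D ^ 2 * b ≤ ⟪y - x, z - x⟫ := by linarith
    calc b = D⁻¹ * (D⁻¹ * (D ^ 2 * b)) := by field_simp
      _ ≤ D⁻¹ * (D⁻¹ * ⟪y - x, z - x⟫) := by
          apply mul_le_mul_of_nonneg_left _ (inv_nonneg.mpr hD.le)
          exact mul_le_mul_of_nonneg_left e2 (inv_nonneg.mpr hD.le)
  obtain ⟨w, hw, hwu⟩ := jung_sphere U ⟨_, y0, hy0, hxy0, rfl⟩ h1 hb0 hb1 h2
  refine ⟨w, by intro h0; rw [h0, norm_zero] at hw; exact zero_ne_one hw, fun z hz hxz => ?_⟩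
  have h3 := hwu _ ⟨z, hz, hxz, rfl⟩
  rw [finrank_euclideanSpace_fin, real_inner_smul_right] at h3
  unfold angle
  apply Real.arccos_le_arccos
  rw [hw, hnorm z hxz, one_mul]
  calc √(b + (1 - b) / d) ≤ D⁻¹ * ⟪w, z - x⟫ := h3
    _ = ⟪w, z - x⟫ / D := by rw [div_eq_inv_mul]

theorem dim_pos {d : ℕ} {X : Set (EuclideanSpace ℝ (Fin d))} (hD : 0 < Metric.diam X) :
    0 < d := by
  rcases Nat.eq_zero_or_pos d with h | h
  · subst h
    rw [Metric.diam_subsingleton (Set.subsingleton_of_subsingleton)] at hD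
    exact absurd hD (lt_irrefl _)
  · exact h

/-- (B): one endpoint of each far pair has a narrow far set. -/
theorem narrow_one {d : ℕ} {κ : ℝ} (hκ : CellBound d κ) {X : Set (EuclideanSpace ℝ (Fin d))}
    (hX : Bornology.IsBounded X) (hD : 0 < Metric.diam X)
    (h : ∀ x ∈ closure X, ∀ y ∈ closure X, dist x y = Metric.diam X →
      ∃ v : EuclideanSpace ℝ (Fin d), v ≠ 0 ∧
      ∃ ρ : ℝ, ρ < Real.arccos κ - Real.arccos (√(((d : ℝ) + 1) / (2 * d))) ∧
      ((∀ z ∈ closure X, dist x z = Metric.diam X → angle v (z - x) ≤ ρ) ∨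
      (∀ z ∈ closure X, dist y z = Metric.diam X → angle v (z - y) ≤ ρ))) :
    ∃ P : Fin (d + 1) → Set (EuclideanSpace ℝ (Fin d)),
      X = ⋃ i, P i ∧ ∀ i, Metric.diam (P i) < Metric.diam X := by
  have hd : (0 : ℝ) < d := by exact_mod_cast dim_pos hD
  have hdiam : ∀ x ∈ closure X, ∀ y ∈ closure X, dist x y ≤ Metric.diam X := by
    intro x hx y hy
    rw [← Metric.diam_closure]
    exact Metric.dist_le_diam_of_mem hX.closure hx hy
  have hb : ∀ x : EuclideanSpace ℝ (Fin d), ∀ y ∈ closure X, ∀ z ∈ closure X,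
      dist x y = Metric.diam X → dist x z = Metric.diam X →
      dist y z ^ 2 ≤ 2 * Metric.diam X ^ 2 * (1 - 1 / 2) := by
    intro x y hy z hz _ _
    have := pow_le_pow_left₀ dist_nonneg (hdiam y hy z hz) 2
    linarith
  have he : (1 : ℝ) / 2 + (1 - 1 / 2) / d = ((d : ℝ) + 1) / (2 * d) := by
    field_simp
    ring
  refine narrow hκ hX hD fun x hx y hy hxy => ?_
  obtain ⟨v, hv, ρ, hρ, h1 | h1⟩ := h x hx y hy hxy
  · obtain ⟨w, hw, hwz⟩ := cap_all hD y ⟨x, hx, by rw [dist_comm]; exact hxy⟩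
      (by norm_num) (by norm_num) (hb y)
    rw [he] at hwz
    exact ⟨v, w, hv, hw, ρ, _, by linarith, h1, hwz⟩
  · obtain ⟨w, hw, hwz⟩ := cap_all hD x ⟨y, hy, hxy⟩ (by norm_num) (by norm_num) (hb x)
    rw [he] at hwz
    exact ⟨w, v, hw, hv, _, ρ, by linarith, hwz, h1⟩

/-- half of the angle -/
theorem two_arccos_lt {κ s : ℝ} (h0 : -1 ≤ κ) (h1 : κ < 1) (hs : (1 + κ) / 2 < s) :
    Real.arccos (√s) < Real.arccos κ / 2 := by
  set t := Real.arccos κ / 2 with ht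
  have ht0 : 0 < t := by rw [ht]; have := Real.arccos_pos.mpr h1; linarith
  have htp : t ≤ Real.pi / 2 := by rw [ht]; have := Real.arccos_le_pi κ; linarith
  have hcos : Real.cos t ^ 2 = (1 + κ) / 2 := by
    have h2 := Real.cos_sq t
    rw [show 2 * t = Real.arccos κ by rw [ht]; ring, Real.cos_arccos h0 h1.le] at h2
    rw [h2]; ring
  have hct : 0 ≤ Real.cos t := Real.cos_nonneg_of_mem_Icc ⟨by linarith [Real.pi_pos], htp⟩
  have hlt : Real.cos t < √s := by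
    rw [show Real.cos t = √(Real.cos t ^ 2) by rw [Real.sqrt_sq hct], hcos]
    exact Real.sqrt_lt_sqrt (by linarith) hs
  have h4 : Real.arccos (Real.cos t) = t :=
    Real.arccos_cos ht0.le (by linarith [Real.pi_pos])
  by_cases h5 : √s ≤ 1
  · calc Real.arccos (√s) < Real.arccos (Real.cos t) :=
          Real.arccos_lt_arccos (by linarith) hlt h5
      _ = t := h4
  · rw [Real.arccos_of_one_le (not_le.mp h5).le]
    exact ht0

/-- (C): diameters with a common endpoint enclose a small angle. -/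
theorem narrow_pairs {d : ℕ} {κ : ℝ} (hκ : CellBound d κ) (hκ0 : -1 ≤ κ) (hκ1 : κ < 1)
    {X : Set (EuclideanSpace ℝ (Fin d))}
    (hX : Bornology.IsBounded X) (hD : 0 < Metric.diam X)
    (h : ∀ x ∈ closure X, ∀ y ∈ closure X, ∀ z ∈ closure X, dist x y = Metric.diam X →
      dist x z = Metric.diam X → ((d : ℝ) - 1) * dist y z ^ 2 < d * (1 - κ) * Metric.diam X ^ 2) :
    ∃ P : Fin (d + 1) → Set (EuclideanSpace ℝ (Fin d)),
      X = ⋃ i, P i ∧ ∀ i, Metric.diam (P i) < Metric.diam X := by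
  have hd : (0 : ℝ) < d := by exact_mod_cast dim_pos hD
  have hd1 : (1 : ℝ) ≤ d := by exact_mod_cast dim_pos hD
  have hK : IsCompact (closure X) := hX.isCompact_closure
  have hdiam : ∀ x ∈ closure X, ∀ y ∈ closure X, dist x y ≤ Metric.diam X := by
    intro x hx y hy
    rw [← Metric.diam_closure]
    exact Metric.dist_le_diam_of_mem hX.closure hx hy
  have key : ∀ x ∈ closure X, (∃ y ∈ closure X, dist x y = Metric.diam X) →
      ∃ w : EuclideanSpace ℝ (Fin d), w ≠ 0 ∧ ∃ ρ : ℝ, ρ < Real.arccos κ / 2 ∧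
        ∀ z ∈ closure X, dist x z = Metric.diam X → angle w (z - x) ≤ ρ := by
    intro x hx hfar
    -- the far set
    have hF : IsCompact {z ∈ closure X | dist x z = Metric.diam X} := by
      have : IsClosed {z : EuclideanSpace ℝ (Fin d) | dist x z = Metric.diam X} :=
        isClosed_eq (by fun_prop) continuous_const
      exact hK.inter_right this
    have hFF := hF.prod hF
    obtain ⟨y1, hy1, hxy1⟩ := hfar
    have hne : ({z ∈ closure X | dist x z = Metric.diam X} ×ˢ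
        {z ∈ closure X | dist x z = Metric.diam X}).Nonempty := ⟨(y1, y1), ⟨hy1, hxy1⟩, hy1, hxy1⟩
    obtain ⟨⟨y0, z0⟩, ⟨⟨hy0, hxy0⟩, hz0, hxz0⟩, hmax⟩ := hFF.exists_isMaxOn hne
      (f := fun q : EuclideanSpace ℝ (Fin d) × EuclideanSpace ℝ (Fin d) => dist q.1 q.2)
      (by fun_prop)
    simp only at hy0 hxy0 hz0 hxz0
    set D := Metric.diam X with hDd
    set M := dist y0 z0 with hM
    have hMD : M ≤ D := hdiam y0 hy0 z0 hz0
    have hM0 : 0 ≤ M := dist_nonneg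
    have hMlt : ((d : ℝ) - 1) * M ^ 2 < d * (1 - κ) * D ^ 2 := h x hx y0 hy0 z0 hz0 hxy0 hxz0
    set b : ℝ := 1 - M ^ 2 / (2 * D ^ 2) with hbdef
    have hD2 : 0 < D ^ 2 := by positivity
    have hq : M ^ 2 / (2 * D ^ 2) ≤ 1 := by
      rw [div_le_one (by positivity)]
      have := pow_le_pow_left₀ hM0 hMD 2
      linarith
    have hq0 : 0 ≤ M ^ 2 / (2 * D ^ 2) := by positivity
    obtain ⟨w, hw, hwz⟩ := cap_all (K := closure X) (D := D) hD x ⟨y1, hy1, hxy1⟩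
      (b := b) (by rw [hbdef]; linarith) (by rw [hbdef]; linarith) (by
        intro y hy z hz hxy hxz
        have h1 : dist y z ≤ M := hmax (a := (y, z)) ⟨⟨hy, hxy⟩, hz, hxz⟩
        have h2 := pow_le_pow_left₀ dist_nonneg h1 2
        have h3 : 2 * D ^ 2 * (1 - b) = M ^ 2 := by rw [hbdef]; field_simp; ring
        rw [h3]; exact h2)
    refine ⟨w, hw, _, two_arccos_lt hκ0 hκ1 ?_, hwz⟩
    -- (1 + κ) / 2 < b + (1 - b) / d
    have h4 : b + (1 - b) / d = 1 - ((d : ℝ) - 1) * M ^ 2 / (2 * D ^ 2 * d) := by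
      rw [hbdef]; field_simp; ring
    have h5 : ((d : ℝ) - 1) * M ^ 2 / (2 * D ^ 2 * d) < (1 - κ) / 2 := by
      rw [div_lt_iff₀ (by positivity)]
      calc ((d : ℝ) - 1) * M ^ 2 < d * (1 - κ) * D ^ 2 := hMlt
        _ = (1 - κ) / 2 * (2 * D ^ 2 * d) := by ring
    rw [h4]; linarith
  refine narrow hκ hX hD fun x hx y hy hxy => ?_
  obtain ⟨v, hv, ρ, hρ, h1⟩ := key x hx ⟨y, hy, hxy⟩
  obtain ⟨w, hw, σ, hσ, h2⟩ := key y hy ⟨x, hx, by rw [dist_comm]; exact hxy⟩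
  exact ⟨v, w, hv, hw, ρ, σ, by linarith, h1, h2⟩

end Vale.Agent.P052.R3.H304
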